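import Vale.Agent.P032.H766.IsoFr

/-!
# P032, isolated switching direction: the base clauses hold in every system
-/

namespace Vale.Agent.P032.H290

open Vale.Agent.P032.H766.Iso

variable {T : ℕ → ℕ → Prop} {Q : ℕ → St → Prop}

theorem L_pos (n : ℕ) : L T Q (2 * n) ↔ P T Q n := by
  have h1 : 2 * n % 2 = 0 := by omega
  have h2 : 2 * n / 2 = n := by omega
  simp only [L, h1, h2, if_true]

theorem L_neg (n : ℕ) : L T Q (2 * n + 1) ↔ ¬ P T Q n := by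
  have h1 : ¬ ((2 * n + 1) % 2 = 0) := by omega
  have h2 : (2 * n + 1) / 2 = n := by omega
  simp only [L, h1, h2, if_false]

theorem cd_k {k p d t S : ℕ} (hk : k < 8) (hp : p < 16) (hd : d < 8) (ht : t < 2) :
    cd k p d t S % 8 = k ∧ cd k p d t S / 8 % 16 = p ∧ cd k p d t S / 128 % 8 = d ∧
      cd k p d t S / 1024 % 2 = t ∧ cd k p d t S / 2048 = S := by
  unfold cd
  refine ⟨?_, ?_, ?_, ?_, ?_⟩ <;> omega

theorem P0 {p d t S : ℕ} (hp : p < 16) (hd : d < 8) (ht : t < 2) :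
    P T Q (cd 0 p d t S) ↔ ∀ c < 6, S.testBit c = true → T p c := by
  obtain ⟨h1, h2, -, -, h5⟩ := cd_k (k := 0) (S := S) (by omega) hp hd ht
  simp only [P, h1, h2, h5]

theorem P1 {p d t S : ℕ} (hp : p < 16) (hd : d < 8) (ht : t < 2) :
    P T Q (cd 1 p d t S) ↔
      (∃ t < 2, ∃ σ, Q t σ ∧ ∃ d < 6, ∀ c < 6, σ p d c ↔ S.testBit c = true) ∧
      ∀ c < 6, S.testBit c = true → T p c := by
  obtain ⟨h1, h2, -, -, h5⟩ := cd_k (k := 1) (S := S) (by omega) hp hd ht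
  simp only [P, h1, h2, h5]

theorem P2 {p d t S : ℕ} (hp : p < 16) (hd : d < 8) (ht : t < 2) :
    P T Q (cd 2 p d t S) ↔ ∃ σ, Q t σ ∧ ∀ c < 6, S.testBit c = true → ¬ σ p d c := by
  obtain ⟨h1, h2, h3, h4, h5⟩ := cd_k (k := 2) (S := S) (by omega) hp hd ht
  simp only [P, h1, h2, h3, h4, h5]

theorem P3 {p d t S : ℕ} (hp : p < 16) (hd : d < 8) (ht : t < 2) :
    P T Q (cd 3 p d t S) ↔ ∃ σ, Q t σ ∧ ∀ c < 6, S.testBit c = true → σ p d c := by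
  obtain ⟨h1, h2, h3, h4, h5⟩ := cd_k (k := 3) (S := S) (by omega) hp hd ht
  simp only [P, h1, h2, h3, h4, h5]

theorem P4 {p d t S : ℕ} (hp : p < 16) (hd : d < 8) (ht : t < 2) :
    P T Q (cd 4 p d t S) ↔
      ∃ t < 2, ∃ σ, Q t σ ∧ ∃ d < 6, ∀ c < 6, σ p d c → S.testBit c = true := by
  obtain ⟨h1, h2, -, -, h5⟩ := cd_k (k := 4) (S := S) (by omega) hp hd ht
  simp only [P, h1, h2, h5]

theorem P5 {p d t S : ℕ} (hp : p < 16) (hd : d < 8) (ht : t < 2) :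
    P T Q (cd 5 p d t S) ↔
      ∀ r ∈ regRow p, ∃ σ, Q r.2.2 σ ∧ ∀ c < 6, S.testBit c = true → ¬ σ r.1 r.2.1 c := by
  obtain ⟨h1, h2, -, -, h5⟩ := cd_k (k := 5) (S := S) (by omega) hp hd ht
  simp only [P, h1, h2, h5]

theorem bit1 {a c : ℕ} : (1 <<< a).testBit c = true ↔ c = a := by
  rw [Nat.shiftLeft_eq, one_mul, Nat.testBit_two_pow]
  simp [eq_comm]

theorem bit2 {a x c : ℕ} : (1 <<< a ||| 1 <<< x).testBit c = true ↔ c = a ∨ c = x := by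
  rw [Nat.testBit_or, Bool.or_eq_true, bit1, bit1]

/-! ### Monotonicity -/

theorem d2_mono {p d t S S' : ℕ} (hp : p < 16) (hd : d < 8) (ht : t < 2)
    (h : ∀ c < 6, S'.testBit c = true → S.testBit c = true) :
    Good [2 * cd 2 p d t S + 1, 2 * cd 2 p d t S'] := by
  intro T Q _
  by_cases hc : P T Q (cd 2 p d t S)
  · refine ⟨_, List.mem_cons_of_mem _ (List.mem_singleton.2 rfl), (L_pos _).2 ?_⟩
    rw [P2 hp hd ht] at hc ⊢
    obtain ⟨σ, hσ, hh⟩ := hc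
    exact ⟨σ, hσ, fun c hc6 hb => hh c hc6 (h c hc6 hb)⟩
  · exact ⟨_, List.mem_cons_self, (L_neg _).2 hc⟩

theorem k3_mono {p d t S S' : ℕ} (hp : p < 16) (hd : d < 8) (ht : t < 2)
    (h : ∀ c < 6, S'.testBit c = true → S.testBit c = true) :
    Good [2 * cd 3 p d t S + 1, 2 * cd 3 p d t S'] := by
  intro T Q _
  by_cases hc : P T Q (cd 3 p d t S)
  · refine ⟨_, List.mem_cons_of_mem _ (List.mem_singleton.2 rfl), (L_pos _).2 ?_⟩
    rw [P3 hp hd ht] at hc ⊢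
    obtain ⟨σ, hσ, hh⟩ := hc
    exact ⟨σ, hσ, fun c hc6 hb => hh c hc6 (h c hc6 hb)⟩
  · exact ⟨_, List.mem_cons_self, (L_neg _).2 hc⟩

theorem a4_mono {p S S' : ℕ} (hp : p < 16)
    (h : ∀ c < 6, S.testBit c = true → S'.testBit c = true) :
    Good [2 * cd 4 p 0 0 S + 1, 2 * cd 4 p 0 0 S'] := by
  intro T Q _
  by_cases hc : P T Q (cd 4 p 0 0 S)
  · refine ⟨_, List.mem_cons_of_mem _ (List.mem_singleton.2 rfl), (L_pos _).2 ?_⟩
    rw [P4 hp (by omega) (by omega)] at hc ⊢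
    obtain ⟨t, ht, σ, hσ, d, hd, hh⟩ := hc
    exact ⟨t, ht, σ, hσ, d, hd, fun c hc6 hb => h c hc6 (hh c hc6 hb)⟩
  · exact ⟨_, List.mem_cons_self, (L_neg _).2 hc⟩

/-! ### Tables -/

theorem inRows_lt : ∀ r ∈ inRows, r.1 < 7 ∧ r.2.1 < 6 ∧ r.2.2 < 7 := by decide +kernel

theorem avRows_lt : ∀ r ∈ avRows, r.1 < 7 ∧ r.2.1 < 6 ∧ r.2.2.1 < 2 ∧ r.2.2.2.1 < 7 ∧
    r.2.2.2.2.1 < 6 ∧ r.2.2.2.2.2 < 2 := by decide +kernel

theorem regRow_lt : ∀ g < 12, ∀ r ∈ regRow g, r.1 < 7 ∧ r.2.1 < 6 ∧ r.2.2 < 2 := by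
  decide +kernel

theorem r7c {r : ℕ × ℕ × ℕ} (hr : r ∈ inRows) {t : ℕ} (ht : t < 2) (S : ℕ) :
    Good [2 * cd 4 r.2.2 0 0 S + 1, 2 * cd 3 r.1 r.2.1 t S + 1] := by
  intro T Q F
  obtain ⟨h1, h2, h3⟩ := inRows_lt r hr
  by_cases hc : P T Q (cd 4 r.2.2 0 0 S)
  · refine ⟨_, List.mem_cons_of_mem _ (List.mem_singleton.2 rfl), (L_neg _).2 ?_⟩
    rw [P4 (by omega) (by omega) (by omega)] at hc
    rw [P3 (by omega) (by omega) ht]
    rintro ⟨σ, hσ, hh⟩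
    obtain ⟨t', ht', σ', hσ', d, hd, hh'⟩ := hc
    obtain ⟨c, hc6, ha, hb⟩ := F.r7 r hr t ht t' ht' σ σ' hσ hσ' d hd
    exact hb (hh c hc6 (hh' c hc6 ha))
  · exact ⟨_, List.mem_cons_self, (L_neg _).2 hc⟩

theorem avc {r : ℕ × ℕ × ℕ × ℕ × ℕ × ℕ} (hr : r ∈ avRows) (S : ℕ) :
    Good [2 * cd 3 r.1 r.2.1 r.2.2.1 S + 1,
      2 * cd 2 r.2.2.2.1 r.2.2.2.2.1 r.2.2.2.2.2 S] := by
  intro T Q F
  obtain ⟨h1, h2, h3, h4, h5, h6⟩ := avRows_lt r hr
  by_cases hc : P T Q (cd 3 r.1 r.2.1 r.2.2.1 S)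
  · refine ⟨_, List.mem_cons_of_mem _ (List.mem_singleton.2 rfl), (L_pos _).2 ?_⟩
    rw [P3 (by omega) (by omega) h3] at hc
    rw [P2 (by omega) (by omega) h6]
    obtain ⟨σ, hσ, hh⟩ := hc
    obtain ⟨σ', hσ', hh'⟩ := F.s12 r hr σ hσ
    exact ⟨σ', hσ', fun c hc6 hb => hh' c hc6 (hh c hc6 hb)⟩
  · exact ⟨_, List.mem_cons_self, (L_neg _).2 hc⟩

theorem reg_some {a : ℕ} (ha : a < 5) :
    Good ((List.range 12).map fun g => 2 * cd 5 g 0 0 (1 <<< a)) := by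
  intro T Q F
  obtain ⟨g, hg, hh⟩ := F.s3 a ha
  refine ⟨2 * cd 5 g 0 0 (1 <<< a), List.mem_map.2 ⟨g, List.mem_range.2 hg, rfl⟩,
    (L_pos _).2 ?_⟩
  rw [P5 (by omega) (by omega) (by omega)]
  intro r hr
  obtain ⟨σ, hσ, hn⟩ := hh r hr
  exact ⟨σ, hσ, fun c _ hb => by rw [bit1] at hb; rw [hb]; exact hn⟩

theorem reg_row {g : ℕ} (hg : g < 12) {r : ℕ × ℕ × ℕ} (hr : r ∈ regRow g) (S : ℕ) :
    Good [2 * cd 5 g 0 0 S + 1, 2 * cd 2 r.1 r.2.1 r.2.2 S] := by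
  intro T Q F
  obtain ⟨h1, h2, h3⟩ := regRow_lt g hg r hr
  by_cases hc : P T Q (cd 5 g 0 0 S)
  · refine ⟨_, List.mem_cons_of_mem _ (List.mem_singleton.2 rfl), (L_pos _).2 ?_⟩
    rw [P5 (by omega) (by omega) (by omega)] at hc
    rw [P2 (by omega) (by omega) h3]
    exact hc r hr
  · exact ⟨_, List.mem_cons_self, (L_neg _).2 hc⟩

/-! ### Exact letters -/

theorem e_disj {p S S' : ℕ} (hp : p < 7) (h : S &&& S' = 0) :
    Good [2 * cd 1 p 0 0 S + 1, 2 * cd 1 p 0 0 S' + 1] := by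
  intro T Q F
  by_cases hc : P T Q (cd 1 p 0 0 S)
  · refine ⟨_, List.mem_cons_of_mem _ (List.mem_singleton.2 rfl), (L_neg _).2 ?_⟩
    rw [P1 (by omega) (by omega) (by omega)] at hc ⊢
    rintro ⟨⟨t', ht', σ', hσ', d', hd', hh'⟩, hT'⟩
    obtain ⟨⟨t, ht, σ, hσ, d, hd, hh⟩, hT⟩ := hc
    obtain ⟨c, hc6, ha, hb⟩ := F.biex t ht t' ht' σ σ' hσ hσ' p hp d hd d' hd'
      (fun c hc6 hc => hT c hc6 ((hh c hc6).1 hc)) (fun c hc6 hc => hT' c hc6 ((hh' c hc6).1 hc))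
    have h1 := (hh c hc6).1 ha
    have h2 := (hh' c hc6).1 hb
    have h3 : (S &&& S').testBit c = true := by rw [Nat.testBit_and, h1, h2]; rfl
    rw [h, Nat.zero_testBit] at h3
    exact Bool.false_ne_true h3
  · exact ⟨_, List.mem_cons_self, (L_neg _).2 hc⟩

theorem e_t {p S c : ℕ} (hp : p < 7) (hc6 : c < 6) (h : S.testBit c = true) :
    Good [2 * cd 1 p 0 0 S + 1, 2 * cd 0 p 0 0 (1 <<< c)] := by
  intro T Q F
  by_cases hc : P T Q (cd 1 p 0 0 S)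
  · refine ⟨_, List.mem_cons_of_mem _ (List.mem_singleton.2 rfl), (L_pos _).2 ?_⟩
    rw [P1 (by omega) (by omega) (by omega)] at hc
    rw [P0 (by omega) (by omega) (by omega)]
    intro c' _ hb
    rw [bit1] at hb
    rw [hb]
    exact hc.2 c hc6 h
  · exact ⟨_, List.mem_cons_self, (L_neg _).2 hc⟩

theorem e_gap {p S c0 : ℕ} (hp : p < 7) (h0 : c0 < 6) :
    Good ((2 * cd 1 p 0 0 S + 1) ::
      ((List.range 6).filter fun c => !S.testBit c && c != c0).map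
        fun c => 2 * cd 0 p 0 0 (1 <<< c)) := by
  intro T Q F
  by_cases hc : P T Q (cd 1 p 0 0 S)
  · rw [P1 (by omega) (by omega) (by omega)] at hc
    obtain ⟨⟨t, ht, σ, hσ, d, hd, hh⟩, hT⟩ := hc
    obtain ⟨x, hx6, hx0, hxT, hxn⟩ := F.gap t ht σ hσ p hp d hd c0 h0
    refine ⟨2 * cd 0 p 0 0 (1 <<< x), List.mem_cons_of_mem _ (List.mem_map.2
      ⟨x, List.mem_filter.2 ⟨List.mem_range.2 hx6, ?_⟩, rfl⟩), (L_pos _).2 ?_⟩
    · have h1 : S.testBit x = false := by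
        cases hb : S.testBit x with
        | false => rfl
        | true => exact absurd ((hh x hx6).2 hb) hxn
      simp [h1, hx0]
    · rw [P0 (by omega) (by omega) (by omega)]
      intro c' _ hb
      rw [bit1] at hb
      rw [hb]
      exact hxT
  · exact ⟨_, List.mem_cons_self, (L_neg _).2 hc⟩

/-- degree clause; `ch x` : use `T(p,x)`, otherwise `not E(p,{a,x})` -/
theorem degc {p a b c d : ℕ} (c0 : ℕ) (ch : ℕ → Bool) (hp : p < 7) (ha : a < 6) (hb : b < 6)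
    (hc : c < 6) (hd : d < 6) (hab : a ≠ b) (hac : a ≠ c) (had : a ≠ d) (hbc : b ≠ c)
    (hbd : b ≠ d) (hcd : c ≠ d) :
    Good ([2 * cd 0 p 0 0 (1 <<< a) + 1, 2 * cd 0 p 0 0 (1 <<< b) + 1,
        2 * cd 0 p 0 0 (1 <<< c) + 1, 2 * cd 0 p 0 0 (1 <<< d) + 1] ++
      ((List.range 6).filter fun x => x != a && x != c0).map
        fun x => if ch x then 2 * cd 0 p 0 0 (1 <<< x)
          else 2 * cd 1 p 0 0 (1 <<< a ||| 1 <<< x) + 1) := by
  intro T Q F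
  have hT : ∀ x, x < 6 → (P T Q (cd 0 p 0 0 (1 <<< x)) ↔ T p x) := by
    intro x hx
    rw [P0 (by omega) (by omega) (by omega)]
    constructor
    · intro h
      exact h x hx (bit1.2 rfl)
    · intro h c' _ hb'
      rw [bit1] at hb'
      rw [hb']
      exact h
  by_cases h1 : T p a
  swap
  · exact ⟨_, List.mem_append_left _ List.mem_cons_self, (L_neg _).2 (by rw [hT a ha]; exact h1)⟩
  by_cases h2 : T p b
  swap
  · exact ⟨_, List.mem_append_left _ (List.mem_cons_of_mem _ List.mem_cons_self),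
      (L_neg _).2 (by rw [hT b hb]; exact h2)⟩
  by_cases h3 : T p c
  swap
  · exact ⟨_, List.mem_append_left _ (List.mem_cons_of_mem _ (List.mem_cons_of_mem _
      List.mem_cons_self)), (L_neg _).2 (by rw [hT c hc]; exact h3)⟩
  by_cases h4 : T p d
  swap
  · exact ⟨_, List.mem_append_left _ (List.mem_cons_of_mem _ (List.mem_cons_of_mem _
      (List.mem_cons_of_mem _ List.mem_cons_self))), (L_neg _).2 (by rw [hT d hd]; exact h4)⟩
  obtain ⟨x, hx, y, hy, hxa, hya, hxy, hTx, hTy, hE⟩ :=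
    F.deg p hp a ha b hb c hc d hd hab hac had hbc hbd hcd h1 h2 h3 h4
  have key : ∀ x, x < 6 → x ≠ a → x ≠ c0 → T p x →
      (∀ t < 2, ∀ σ, Q t σ → ∀ j < 6, ¬ (∀ e < 6, σ p j e ↔ e = a ∨ e = x)) →
      ∃ l ∈ ([2 * cd 0 p 0 0 (1 <<< a) + 1, 2 * cd 0 p 0 0 (1 <<< b) + 1,
        2 * cd 0 p 0 0 (1 <<< c) + 1, 2 * cd 0 p 0 0 (1 <<< d) + 1] ++
        ((List.range 6).filter fun x => x != a && x != c0).map
        fun x => if ch x then 2 * cd 0 p 0 0 (1 <<< x)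
          else 2 * cd 1 p 0 0 (1 <<< a ||| 1 <<< x) + 1), L T Q l := by
    intro x hx hxa hx0 hTx hEx
    refine ⟨_, List.mem_append_right _ (List.mem_map.2
      ⟨x, List.mem_filter.2 ⟨List.mem_range.2 hx, ?_⟩, rfl⟩), ?_⟩
    · simp [hxa, hx0]
    · cases hch : ch x with
      | true =>
        simp only [if_true]
        exact (L_pos _).2 ((hT x hx).2 hTx)
      | false =>
        simp only [Bool.false_eq_true, if_false]
        refine (L_neg _).2 ?_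
        rw [P1 (by omega) (by omega) (by omega)]
        rintro ⟨⟨t, ht, σ, hσ, j, hj, hh⟩, _⟩
        refine hEx t ht σ hσ j hj fun e he => ?_
        rw [hh e he, bit2]
  by_cases hx0 : x = c0
  · refine key y hy hya ?_ hTy fun t ht σ hσ j hj => (hE t ht σ hσ j hj).2
    rw [← hx0]
    exact fun h => hxy h.symm
  · exact key x hx hxa hx0 hTx fun t ht σ hσ j hj => (hE t ht σ hσ j hj).1

/-! ### Palettes -/

theorem t_iff {p c : ℕ} (hp : p < 7) (hc : c < 6) :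
    P T Q (cd 0 p 0 0 (1 <<< c)) ↔ T p c := by
  rw [P0 (by omega) (by omega) (by omega)]
  constructor
  · intro h
    exact h c hc (bit1.2 rfl)
  · intro h c' _ hb'
    rw [bit1] at hb'
    rw [hb']
    exact h

theorem z_t {c : ℕ} (hc : c < 5) : Good [2 * cd 0 0 0 0 (1 <<< c)] := by
  intro T Q F
  refine ⟨_, List.mem_singleton.2 rfl, (L_pos _).2 ((t_iff (by omega) (by omega)).2 ?_)⟩
  exact (F.z5 c (by omega)).2 (by omega)

theorem z_5 : Good [2 * cd 0 0 0 0 (1 <<< 5) + 1] := by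
  intro T Q F
  refine ⟨_, List.mem_singleton.2 rfl, (L_neg _).2 ?_⟩
  rw [t_iff (by omega) (by omega)]
  exact fun h => (F.z5 5 (by omega)).1 h rfl

theorem v_5 {p : ℕ} (hp : p < 7) (h0 : p ≠ 0) : Good [2 * cd 0 p 0 0 (1 <<< 5)] := by
  intro T Q F
  exact ⟨_, List.mem_singleton.2 rfl, (L_pos _).2 ((t_iff hp (by omega)).2 (F.v5 p hp h0))⟩

theorem v_n {p : ℕ} (hp : p < 7) :
    Good ((List.range 6).map fun c => 2 * cd 0 p 0 0 (1 <<< c) + 1) := by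
  intro T Q F
  obtain ⟨c, hc, hn⟩ := F.vn p hp
  refine ⟨2 * cd 0 p 0 0 (1 <<< c) + 1, List.mem_map.2 ⟨c, List.mem_range.2 hc, rfl⟩,
    (L_neg _).2 ?_⟩
  rw [t_iff hp hc]
  exact hn

/-- palette masks: a colour outside -/
theorem t_mono {p S S' : ℕ} (hp : p < 7)
    (h : ∀ c < 6, S'.testBit c = true → S.testBit c = true) :
    Good [2 * cd 0 p 0 0 S + 1, 2 * cd 0 p 0 0 S'] := by
  intro T Q _
  by_cases hc : P T Q (cd 0 p 0 0 S)
  · refine ⟨_, List.mem_cons_of_mem _ (List.mem_singleton.2 rfl), (L_pos _).2 ?_⟩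
    rw [P0 (by omega) (by omega) (by omega)] at hc ⊢
    exact fun c hc6 hb => hc c hc6 (h c hc6 hb)
  · exact ⟨_, List.mem_cons_self, (L_neg _).2 hc⟩

end Vale.Agent.P032.H290
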